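import Crest.Prelude.Def_PolyominoGame

/-!
# Snaky: semantic core

`Win k M Z`: if Maker owns `M` and no Breaker stone lies in `Z`, then Maker (to move) completes a
copy of Snaky within `k` own moves, and can keep making legal moves forever.
Bottom-up inference rules: `Win.leaf`, `Part.ofWin`, `Part.merge`, `Part.step`, plus monotonicity.
-/

namespace Crest.Agent.Snaky

open Crest.CombinatoricsR.PolyominoGame

abbrev Cell := ℤ × ℤ

/-- Maker's `j`-th claim under the history-dependent rule `τ` against replies `r`. -/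
def claim (τ : List Cell → Cell) (r : ℕ → Cell) (j : ℕ) : Cell := τ ((List.range j).map r)

/-- `τ` is a good continuation from the position `(own, opp)`, Maker to move. -/
structure Good (τ : List Cell → Cell) (own opp : Finset Cell) (k : ℕ) : Prop where
  legal : ∀ (r : ℕ → Cell) (n : ℕ), claim τ r n ∉ own ∧ claim τ r n ∉ opp ∧
    ∀ j < n, claim τ r n ≠ claim τ r j ∧ claim τ r n ≠ r j
  wins : ∀ r : ℕ → Cell, ContainsCopy ((own : Set Cell) ∪ {c | ∃ j < k, c = claim τ r j})

def Win (k : ℕ) (M Z : Set Cell) : Prop :=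
  ∀ own opp : Finset Cell, M ⊆ own → Disjoint Z (opp : Set Cell) → ∃ τ, Good τ own opp k

/-- Breaker to move: every legal reply (not on a Maker stone) outside `I` leaves a won position. -/
def Part (k : ℕ) (M Z I : Set Cell) : Prop :=
  ∀ own opp : Finset Cell, M ⊆ own → Disjoint Z (opp : Set Cell) →
    ∀ r, r ∉ own → r ∉ I → ∃ τ, Good τ own (insert r opp) k

theorem ContainsCopy.mono {X Y : Set Cell} (h : X ⊆ Y) (hX : ContainsCopy X) : ContainsCopy Y := by
  obtain ⟨t, e1, e2, h1, h2, h3⟩ := hX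
  refine ⟨t, e1, e2, h1, h2, ?_⟩
  rcases h3 with h3 | h3
  · exact Or.inl fun p hp => h (h3 p hp)
  · exact Or.inr fun p hp => h (h3 p hp)

theorem Good.mono_k {τ : List Cell → Cell} {own opp : Finset Cell} {k k' : ℕ}
    (h : Good τ own opp k) (hk : k ≤ k') : Good τ own opp k' := by
  refine ⟨h.legal, fun r => ContainsCopy.mono ?_ (h.wins r)⟩
  rintro c (hc | ⟨j, hj, rfl⟩)
  · exact Or.inl hc
  · exact Or.inr ⟨j, lt_of_lt_of_le hj hk, rfl⟩

theorem Win.mono {k k' : ℕ} {M M' Z Z' : Set Cell} (h : Win k M Z) (hk : k ≤ k')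
    (hM : M ⊆ M') (hZ : Z ⊆ Z') : Win k' M' Z' := by
  intro own opp h1 h2
  obtain ⟨τ, hτ⟩ := h own opp (hM.trans h1) (Set.disjoint_of_subset_left hZ h2)
  exact ⟨τ, hτ.mono_k hk⟩

theorem Part.mono {k k' : ℕ} {M M' Z Z' I I' : Set Cell} (h : Part k M Z I) (hk : k ≤ k')
    (hM : M ⊆ M') (hZ : Z ⊆ Z') (hI : I ⊆ I') : Part k' M' Z' I' := by
  intro own opp h1 h2 r hro hr
  obtain ⟨τ, hτ⟩ := h own opp (hM.trans h1) (Set.disjoint_of_subset_left hZ h2) r hro
    (fun h => hr (hI h))
  exact ⟨τ, hτ.mono_k hk⟩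

/-- Every reply outside `Z` leaves `Z` free. -/
theorem Part.ofWin {k : ℕ} {M Z : Set Cell} (h : Win k M Z) : Part k M Z Z := by
  intro own opp h1 h2 r _ hr
  apply h own _ h1
  rw [Finset.coe_insert, Set.disjoint_insert_right]
  exact ⟨hr, h2⟩

theorem Part.merge {k₁ k₂ : ℕ} {M₁ M₂ Z₁ Z₂ I₁ I₂ : Set Cell}
    (h₁ : Part k₁ M₁ Z₁ I₁) (h₂ : Part k₂ M₂ Z₂ I₂) :
    Part (max k₁ k₂) (M₁ ∪ M₂) (Z₁ ∪ Z₂) (I₁ ∩ I₂) := by
  intro own opp h1 h2 r hro hr
  have h1' := Set.union_subset_iff.1 h1
  have h2' := Set.disjoint_union_left.1 h2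
  by_cases hr1 : r ∈ I₁
  · have hr2 : r ∉ I₂ := fun h => hr ⟨hr1, h⟩
    obtain ⟨τ, hτ⟩ := h₂ own opp h1'.2 h2'.2 r hro hr2
    exact ⟨τ, hτ.mono_k (le_max_right _ _)⟩
  · obtain ⟨τ, hτ⟩ := h₁ own opp h1'.1 h2'.1 r hro hr1
    exact ⟨τ, hτ.mono_k (le_max_left _ _)⟩

/-! ## Fresh moves -/

/-- An `x`-coordinate beyond every cell of `S`. -/
def freshX (S : Finset Cell) : ℤ := 1 + ∑ p ∈ S, |p.1|

theorem lt_freshX {S : Finset Cell} {p : Cell} (hp : p ∈ S) : p.1 < freshX S := by
  have h1 : |p.1| ≤ ∑ q ∈ S, |q.1| :=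
    Finset.single_le_sum (f := fun q : Cell => |q.1|) (fun q _ => abs_nonneg _) hp
  have h2 := le_abs_self p.1
  unfold freshX
  linarith

theorem fresh_not_mem {S : Finset Cell} {y : ℤ} : ((freshX S, y) : Cell) ∉ S := by
  intro h
  have := lt_freshX h
  simp at this

open Classical in
/-- The idle rule: a fresh far away cell in the row given by the length of the history. -/
noncomputable def idle (own opp : Finset Cell) (l : List Cell) : Cell :=
  (freshX (own ∪ opp ∪ l.toFinset), (l.length : ℤ))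

theorem idle_legal (own opp : Finset Cell) (r : ℕ → Cell) (n : ℕ) :
    claim (idle own opp) r n ∉ own ∧ claim (idle own opp) r n ∉ opp ∧
      ∀ j < n, claim (idle own opp) r n ≠ claim (idle own opp) r j ∧
        claim (idle own opp) r n ≠ r j := by
  classical
  have key : ∀ p, p ∈ own ∪ opp ∪ ((List.range n).map r).toFinset →
      claim (idle own opp) r n ≠ p := by
    intro p hp h
    rw [← h] at hp
    exact fresh_not_mem hp
  refine ⟨fun h => key _ (by simp [h]) rfl, fun h => key _ (by simp [h]) rfl, ?_⟩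
  intro j hj
  constructor
  · intro h
    have := congrArg Prod.snd h
    simp [claim, idle] at this
    omega
  · apply key
    simp only [Finset.mem_union, List.mem_toFinset, List.mem_map, List.mem_range]
    exact Or.inr ⟨j, hj, rfl⟩

theorem Win.leaf {M : Set Cell} (h : ContainsCopy M) : Win 0 M ∅ := by
  intro own opp h1 _
  refine ⟨idle own opp, idle_legal own opp, fun r => ContainsCopy.mono ?_ h⟩
  exact h1.trans Set.subset_union_left

/-! ## The step rule -/

theorem claim_cons_zero (τ : List Cell → Cell) (r : ℕ → Cell) : claim τ r 0 = τ [] := rfl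

/-- The continuation: first `c`, then after the reply `x` follow `T x`. -/
def thenFollow (c : Cell) (T : Cell → List Cell → Cell) : List Cell → Cell
  | [] => c
  | x :: xs => T x xs

theorem claim_thenFollow_zero (c : Cell) (T : Cell → List Cell → Cell) (r : ℕ → Cell) :
    claim (thenFollow c T) r 0 = c := rfl

theorem claim_thenFollow_succ (c : Cell) (T : Cell → List Cell → Cell) (r : ℕ → Cell) (n : ℕ) :
    claim (thenFollow c T) r (n + 1) = claim (T (r 0)) (fun i => r (i + 1)) n := by
  simp only [claim, List.range_succ_eq_map, List.map_cons, List.map_map]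
  rfl

theorem Good.thenFollow {own opp : Finset Cell} {k : ℕ} {c : Cell} (hc1 : c ∉ own) (hc2 : c ∉ opp)
    {T : Cell → List Cell → Cell} (hT : ∀ x, Good (T x) (insert c own) (insert x opp) k) :
    Good (Snaky.thenFollow c T) own opp (k + 1) := by
  constructor
  · intro r n
    cases n with
    | zero =>
      rw [claim_thenFollow_zero]
      exact ⟨hc1, hc2, fun j hj => absurd hj (Nat.not_lt_zero _)⟩
    | succ n =>
      rw [claim_thenFollow_succ]
      obtain ⟨a1, a2, a3⟩ := (hT (r 0)).legal (fun i => r (i + 1)) n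
      rw [Finset.mem_insert, not_or] at a1 a2
      refine ⟨a1.2, a2.2, ?_⟩
      intro j hj
      cases j with
      | zero =>
        rw [claim_thenFollow_zero]
        exact ⟨a1.1, a2.1⟩
      | succ j =>
        rw [claim_thenFollow_succ]
        exact a3 j (by omega)
  · intro r
    refine ContainsCopy.mono ?_ ((hT (r 0)).wins (fun i => r (i + 1)))
    rintro p (hp | ⟨j, hj, rfl⟩)
    · rw [Finset.coe_insert, Set.mem_insert_iff] at hp
      rcases hp with rfl | hp
      · exact Or.inr ⟨0, by omega, rfl⟩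
      · exact Or.inl hp
    · refine Or.inr ⟨j + 1, by omega, ?_⟩
      rw [claim_thenFollow_succ]

/-- A strategy good against the reply `x₀` is also good against a reply on a Maker stone. -/
theorem Good.of_own_reply {τ : List Cell → Cell} {own opp : Finset Cell} {k : ℕ} {x₀ x : Cell}
    (h : Good τ own (insert x₀ opp) k) (hx : x ∈ own) : Good τ own (insert x opp) k := by
  refine ⟨fun r n => ?_, h.wins⟩
  obtain ⟨a1, a2, a3⟩ := h.legal r n
  refine ⟨a1, ?_, a3⟩
  rw [Finset.mem_insert, not_or] at a2 ⊢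
  refine ⟨?_, a2.2⟩
  rintro rfl
  exact a1 hx

/-- Maker's move `m`: the exception set `I` of the Breaker-to-move fact becomes a Maker requirement
(a reply there would be illegal). -/
theorem Part.step {k : ℕ} {M Z I : Set Cell} (h : Part k M Z I) (m : Cell) :
    Win (k + 1) ((M ∪ I) \ {m}) (Z ∪ {m}) := by
  classical
  intro own opp h1 h2
  have h2' := Set.disjoint_union_left.1 h2
  have hm : m ∉ opp := by
    intro hm
    exact Set.disjoint_left.1 h2'.2 (Set.mem_singleton m) (by exact_mod_cast hm)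
  -- the actual move
  obtain ⟨c, hc1, hc2, hc3⟩ : ∃ c, c ∉ own ∧ c ∉ opp ∧ M ∪ I ⊆ (insert c own : Finset Cell) := by
    by_cases hm' : m ∈ own
    · refine ⟨(freshX (own ∪ opp), 0), ?_, ?_, ?_⟩
      · intro h; exact fresh_not_mem (S := own ∪ opp) (Finset.mem_union_left _ h)
      · intro h; exact fresh_not_mem (S := own ∪ opp) (Finset.mem_union_right _ h)
      · intro p hp
        rw [Finset.coe_insert]
        by_cases hpm : p = m
        · subst hpm; exact Or.inr hm'
        · exact Or.inr (h1 ⟨hp, hpm⟩)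
    · refine ⟨m, hm', hm, ?_⟩
      intro p hp
      rw [Finset.coe_insert]
      by_cases hpm : p = m
      · exact Or.inl hpm
      · exact Or.inr (h1 ⟨hp, hpm⟩)
  have hM : M ⊆ (insert c own : Finset Cell) := Set.subset_union_left.trans hc3
  have hI : ∀ x, x ∉ insert c own → x ∉ I := fun x hx hxI =>
    hx (by exact_mod_cast hc3 (Or.inr hxI))
  have key : ∀ x, ∃ τ, Good τ (insert c own) (insert x opp) k := by
    intro x
    by_cases hx : x ∈ insert c own
    · -- an illegal reply: use the strategy against some legal one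
      have hfresh : ((freshX (insert c own), 0) : Cell) ∉ insert c own := fresh_not_mem
      obtain ⟨τ, hτ⟩ := h (insert c own) opp hM h2'.1 _ hfresh (hI _ hfresh)
      exact ⟨τ, hτ.of_own_reply hx⟩
    · exact h (insert c own) opp hM h2'.1 x hx (hI x hx)
  choose T hT using key
  exact ⟨thenFollow c T, Good.thenFollow hc1 hc2 hT⟩

/-- The final statement from a fact with no Maker requirement. -/
theorem main_of_win {Z : Set Cell} (h : Win 21 ∅ Z) :
    ∃ σ : List (ℤ × ℤ) → ℤ × ℤ, ∀ b : ℕ → ℤ × ℤ,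
      (∀ k : ℕ, k ≤ 20 →
        (∀ j : ℕ, j < k → makerClaim σ b k ≠ makerClaim σ b j) ∧
        (∀ j : ℕ, j < k → makerClaim σ b k ≠ b j)) ∧
      ContainsCopy {c | ∃ j : ℕ, j ≤ 20 ∧ c = makerClaim σ b j} := by
  obtain ⟨τ, hτ⟩ := h ∅ ∅ (by simp) (by simp)
  refine ⟨τ, fun b => ⟨fun k _ => ?_, ?_⟩⟩
  · obtain ⟨_, _, h3⟩ := hτ.legal b k
    exact ⟨fun j hj => (h3 j hj).1, fun j hj => (h3 j hj).2⟩
  · refine ContainsCopy.mono ?_ (hτ.wins b)
    rintro p (hp | ⟨j, hj, rfl⟩)
    · simp at hp
    · exact ⟨j, by omega, rfl⟩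

end Crest.Agent.Snaky
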