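import Crest.Agent.Lib.Snaky.VM

/-!
# Snaky: soundness of the certificate machine
-/

set_option linter.unusedTactic false
set_option linter.unreachableTactic false
set_option linter.unnecessarySeqFocus false

namespace Crest.Agent.Snaky

open Crest.CombinatoricsR.PolyominoGame

/-! ## Translations -/

theorem ContainsCopy.translate {X Y : Set Cell} (t : Cell) (hXY : ∀ p ∈ X, p + t ∈ Y)
    (hX : ContainsCopy X) : ContainsCopy Y := by
  obtain ⟨t₀, e1, e2, h1, h2, h3⟩ := hX
  refine ⟨t₀ + t, e1, e2, h1, h2, ?_⟩
  rcases h3 with h3 | h3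
  · left
    intro p hp
    have := hXY _ (h3 p hp)
    convert this using 1
    ext <;> simp <;> ring
  · right
    intro p hp
    have := hXY _ (h3 p hp)
    convert this using 1
    ext <;> simp <;> ring

/-- The translated rule. -/
def trans (t : Cell) (τ : List Cell → Cell) (l : List Cell) : Cell :=
  τ (l.map (· - t)) + t

theorem claim_trans (t : Cell) (τ : List Cell → Cell) (r : ℕ → Cell) (n : ℕ) :
    claim (trans t τ) r n = claim τ (fun i => r i - t) n + t := by
  simp [claim, trans, List.map_map, Function.comp_def]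

theorem Good.trans {τ : List Cell → Cell} {own opp : Finset Cell} {k : ℕ} (t : Cell)
    (h : Good τ (own.image (· - t)) (opp.image (· - t)) k) :
    Good (Snaky.trans t τ) own opp k := by
  constructor
  · intro r n
    obtain ⟨a1, a2, a3⟩ := h.legal (fun i => r i - t) n
    rw [claim_trans]
    refine ⟨fun hm => a1 ?_, fun hm => a2 ?_, fun j hj => ?_⟩
    · exact Finset.mem_image.2 ⟨_, hm, by simp⟩
    · exact Finset.mem_image.2 ⟨_, hm, by simp⟩
    · rw [claim_trans]
      obtain ⟨b1, b2⟩ := a3 j hj
      refine ⟨fun he => b1 (add_right_cancel he), fun he => b2 ?_⟩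
      rw [← he]; simp
  · intro r
    refine ContainsCopy.translate t ?_ (h.wins (fun i => r i - t))
    rintro p (hp | ⟨j, hj, rfl⟩)
    · obtain ⟨q, hq, rfl⟩ := Finset.mem_image.1 (by exact_mod_cast hp)
      left
      simpa using hq
    · right
      exact ⟨j, hj, (claim_trans t τ r j).symm⟩

theorem Part.translate {k : ℕ} {M Z I M' Z' I' : Set Cell} (t : Cell) (h : Part k M Z I)
    (hM : ∀ p ∈ M, p + t ∈ M') (hZ' : ∀ p ∈ Z, p + t ∈ Z')
    (hI : ∀ p ∈ I, p + t ∈ I') : Part k M' Z' I' := by
  intro own opp h1 h2 r hro hr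
  have h1' : M ⊆ ((own.image (· - t) : Finset Cell) : Set Cell) := by
    intro p hp
    have := h1 (hM p hp)
    rw [Finset.coe_image]
    exact ⟨p + t, this, by simp⟩
  have h2' : Disjoint Z ((opp.image (· - t) : Finset Cell) : Set Cell) := by
    rw [Set.disjoint_left]
    intro p hp hq
    rw [Finset.coe_image] at hq
    obtain ⟨q, hq, rfl⟩ := hq
    have := hZ' _ hp
    simp only [sub_add_cancel] at this
    exact Set.disjoint_left.1 h2 this hq
  have hr' : r - t ∉ I := fun hi => hr (by simpa using hI _ hi)
  have hro' : r - t ∉ own.image (· - t) := by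
    intro hq
    obtain ⟨q, hq, he⟩ := Finset.mem_image.1 hq
    have : q = r := by simpa using he
    exact hro (this ▸ hq)
  obtain ⟨τ, hτ⟩ := h _ _ h1' h2' (r - t) hro' hr'
  refine ⟨Snaky.trans t τ, Good.trans t ?_⟩
  rw [Finset.image_insert]
  exact hτ

/-! ## Masks -/

/-- The cell of a bit index. -/
def cell (i : ℕ) : Cell := (((i % 64 : ℕ) : ℤ), ((i / 64 : ℕ) : ℤ))

theorem cell_inj {i j : ℕ} (h : cell i = cell j) : i = j := by
  have h1 := congrArg Prod.fst h
  have h2 := congrArg Prod.snd h
  simp only [cell, Nat.cast_inj] at h1 h2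
  omega

/-- The set of cells of a mask. -/
def cells (n : ℕ) : Set Cell := {p | ∃ i, n.testBit i = true ∧ p = cell i}

theorem mem_cells {n i : ℕ} : cell i ∈ cells n ↔ n.testBit i = true := by
  constructor
  · rintro ⟨j, hj, he⟩
    rw [cell_inj he]; exact hj
  · intro h; exact ⟨i, h, rfl⟩

@[simp] theorem cells_zero : cells 0 = ∅ := by
  ext p; simp [cells]

theorem cells_lor (a b : ℕ) : cells (Nat.lor a b) = cells a ∪ cells b := by
  ext p
  constructor
  · rintro ⟨i, hi, rfl⟩
    have : (a ||| b).testBit i = true := hi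
    rw [Nat.testBit_or, Bool.or_eq_true] at this
    rcases this with h | h
    · exact Or.inl (mem_cells.2 h)
    · exact Or.inr (mem_cells.2 h)
  · rintro (⟨i, hi, rfl⟩ | ⟨i, hi, rfl⟩)
    · refine mem_cells.2 ?_
      change (a ||| b).testBit i = true
      simp [Nat.testBit_or, hi]
    · refine mem_cells.2 ?_
      change (a ||| b).testBit i = true
      simp [Nat.testBit_or, hi]

theorem cells_land (a b : ℕ) : cells (Nat.land a b) = cells a ∩ cells b := by
  ext p
  constructor
  · rintro ⟨i, hi, rfl⟩
    have : (a &&& b).testBit i = true := hi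
    rw [Nat.testBit_and, Bool.and_eq_true] at this
    exact ⟨mem_cells.2 this.1, mem_cells.2 this.2⟩
  · rintro ⟨h1, h2⟩
    obtain ⟨i, hi, rfl⟩ := h1
    have h2' := mem_cells.1 h2
    refine mem_cells.2 ?_
    change (a &&& b).testBit i = true
    simp [Nat.testBit_and, hi, h2']

theorem cells_bit (m : ℕ) : cells (Nat.shiftLeft 1 m) = {cell m} := by
  have hb : ∀ i, (Nat.shiftLeft 1 m).testBit i = decide (i = m) := by
    intro i
    have : Nat.shiftLeft 1 m = 2 ^ m := by
      change 1 <<< m = 2 ^ m
      rw [Nat.shiftLeft_eq, one_mul]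
    rw [this, Nat.testBit_two_pow]
    simp [eq_comm]
  ext p
  constructor
  · rintro ⟨i, hi, rfl⟩
    rw [hb] at hi
    simp at hi
    simp [hi]
  · rintro rfl
    refine mem_cells.2 ?_
    rw [hb]; simp

theorem cells_clear (a m : ℕ) :
    cells (Nat.xor a (Nat.land a (Nat.shiftLeft 1 m))) = cells a \ {cell m} := by
  have hb : ∀ i, (Nat.shiftLeft 1 m).testBit i = decide (i = m) := by
    intro i
    have : Nat.shiftLeft 1 m = 2 ^ m := by
      change 1 <<< m = 2 ^ m
      rw [Nat.shiftLeft_eq, one_mul]
    rw [this, Nat.testBit_two_pow]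
    simp [eq_comm]
  have ht : ∀ i, (Nat.xor a (Nat.land a (Nat.shiftLeft 1 m))).testBit i
      = (a.testBit i && !decide (i = m)) := by
    intro i
    change (a ^^^ (a &&& (Nat.shiftLeft 1 m))).testBit i = _
    rw [Nat.testBit_xor, Nat.testBit_and, hb]
    cases a.testBit i <;> simp
  ext p
  constructor
  · rintro ⟨i, hi, rfl⟩
    rw [ht] at hi
    simp only [Bool.and_eq_true, Bool.not_eq_true', decide_eq_false_iff_not] at hi
    exact ⟨mem_cells.2 hi.1, fun h => hi.2 (cell_inj h)⟩
  · rintro ⟨⟨i, hi, rfl⟩, h2⟩
    refine mem_cells.2 ?_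
    rw [ht, hi]
    simp only [Bool.true_and, Bool.not_eq_true', decide_eq_false_iff_not]
    rintro rfl
    exact h2 rfl

theorem land_63 (a : ℕ) : Nat.land a 63 = a % 64 := by
  change a &&& 63 = a % 64
  exact Nat.and_two_pow_sub_one_eq_mod a 6

theorem land_4095_lt (a : ℕ) : Nat.land a 4095 < 4096 := by
  change a &&& 4095 < 4096
  have : a &&& 4095 = a % 2 ^ 12 := Nat.and_two_pow_sub_one_eq_mod a 12
  rw [this]
  exact Nat.mod_lt _ (by norm_num)

theorem nmax_eq (a b : ℕ) : nmax a b = max a b := by
  unfold nmax
  by_cases h : a ≤ b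
  · have : Nat.ble a b = true := Nat.ble_eq_true_of_le h
    simp [this, h]
  · have : Nat.ble a b = false := by
      rw [← Bool.not_eq_true]
      exact fun h' => h (Nat.le_of_ble_eq_true h')
    simp [this]
    omega

/-- `cells (a <<< s)` is the translate of `cells a` when no column overflows. -/
theorem cell_add {i s : ℕ} (h : i % 64 + s % 64 < 64) : cell (i + s) = cell i + cell s := by
  have h1 : (i + s) % 64 = i % 64 + s % 64 := by omega
  have h2 : (i + s) / 64 = i / 64 + s / 64 := by omega
  simp [cell, h1, h2]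

theorem testBit_shiftLeft' {a s j : ℕ} :
    (Nat.shiftLeft a s).testBit j = (decide (j ≥ s) && a.testBit (j - s)) :=
  Nat.testBit_shiftLeft a

/-! ## Validity -/

/-- Soundness invariant of a machine entry. -/
structure Valid (e : Ent) : Prop where
  part : Part e.k (cells e.M) (cells e.Z) (cells e.I)
  bdM : ∀ i, e.M.testBit i = true → i % 64 ≤ e.x
  bdZ : ∀ i, e.Z.testBit i = true → i % 64 ≤ e.x
  bdI : ∀ i, e.I.testBit i = true → i % 64 ≤ e.x

/-- All stored entries are valid. -/
def Mem.All : Mem → Prop
  | .nil => True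
  | .leaf e => Valid e
  | .node l r => l.All ∧ r.All

theorem Mem.get_all {m : Mem} (hm : m.All) {key : ℕ} {e : Ent} (h : m.get key = some e) :
    Valid e := by
  induction m generalizing key with
  | nil => exact absurd h (by simp [Mem.get])
  | leaf e' =>
    have : some e' = some e := h
    cases this
    exact hm
  | node l r il ir =>
    have h' : cond (Nat.beq (Nat.land key 1) 0) (l.get (Nat.shiftRight key 1))
        (r.get (Nat.shiftRight key 1)) = some e := h
    cases hb : Nat.beq (Nat.land key 1) 0 with
    | true =>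
      rw [hb] at h'
      exact il hm.1 h'
    | false =>
      rw [hb] at h'
      exact ir hm.2 h'

theorem Mem.set_nil_all (d key : ℕ) {e : Ent} (he : Valid e) : (Mem.set d Mem.nil key e).All := by
  induction d generalizing key with
  | zero => exact he
  | succ d ih =>
    change (cond (Nat.beq (Nat.land key 1) 0)
          (Mem.node (Mem.set d Mem.nil (Nat.shiftRight key 1) e) Mem.nil)
          (Mem.node Mem.nil (Mem.set d Mem.nil (Nat.shiftRight key 1) e))).All
    cases Nat.beq (Nat.land key 1) 0 with
    | true => exact ⟨ih _, trivial⟩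
    | false => exact ⟨trivial, ih _⟩

theorem Mem.set_all (d : ℕ) {m : Mem} (hm : m.All) (key : ℕ) {e : Ent} (he : Valid e) :
    (Mem.set d m key e).All := by
  induction d generalizing m key with
  | zero => exact he
  | succ d ih =>
    cases m with
    | nil => exact Mem.set_nil_all _ _ he
    | leaf e' => exact he
    | node l r =>
      change (cond (Nat.beq (Nat.land key 1) 0)
          (Mem.node (Mem.set d l (Nat.shiftRight key 1) e) r)
          (Mem.node l (Mem.set d r (Nat.shiftRight key 1) e))).All
      cases Nat.beq (Nat.land key 1) 0 with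
      | true => exact ⟨ih hm.1 _, hm.2⟩
      | false => exact ⟨hm.1, ih hm.2 _⟩

/-- The machine state invariant. -/
def StOK (st : List Ent) (mem : Mem) : Prop := (∀ e ∈ st, Valid e) ∧ mem.All

theorem valid_of_testBit_lor {a b x : ℕ} (ha : ∀ i, a.testBit i = true → i % 64 ≤ x)
    (hb : ∀ i, b.testBit i = true → i % 64 ≤ x) :
    ∀ i, (Nat.lor a b).testBit i = true → i % 64 ≤ x := by
  intro i hi
  have : (a ||| b).testBit i = true := hi
  rw [Nat.testBit_or, Bool.or_eq_true] at this
  rcases this with h | h
  · exact ha i h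
  · exact hb i h

theorem bd_mono {a x y : ℕ} (ha : ∀ i, a.testBit i = true → i % 64 ≤ x) (h : x ≤ y) :
    ∀ i, a.testBit i = true → i % 64 ≤ y := fun i hi => (ha i hi).trans h

theorem bd_bit (m : ℕ) : ∀ i, (Nat.shiftLeft 1 m).testBit i = true → i % 64 ≤ m % 64 := by
  intro i hi
  have : cell i ∈ cells (Nat.shiftLeft 1 m) := mem_cells.2 hi
  rw [cells_bit] at this
  rw [cell_inj this]

/-! ## The instructions -/

theorem opStep_sound {arg : ℕ} {st : List Ent} {mem : Mem} {st' : List Ent} {mem' : Mem}
    (h : StOK st mem) (hr : opStep arg st mem = some (st', mem')) : StOK st' mem' := by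
  cases st with
  | nil => exact absurd hr (by simp [opStep])
  | cons e st₀ =>
    have hr' : some (Ent.mk (Nat.succ e.k)
          (Nat.xor (Nat.lor e.M e.I) (Nat.land (Nat.lor e.M e.I) (Nat.shiftLeft 1 arg)))
          (Nat.lor e.Z (Nat.shiftLeft 1 arg)) (Nat.lor e.Z (Nat.shiftLeft 1 arg))
          (nmax e.x (Nat.land arg 63)) :: st₀, mem) = some (st', mem') := hr
    simp only [Option.some.injEq, Prod.mk.injEq] at hr'
    obtain ⟨rfl, rfl⟩ := hr'
    have hv : Valid e := h.1 e (by simp)
    have hw := Part.ofWin (hv.part.step (cell arg))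
    have hx : max e.x (arg % 64) = nmax e.x (Nat.land arg 63) := by
      rw [nmax_eq, land_63]
    refine ⟨?_, h.2⟩
    intro e' he'
    rcases List.mem_cons.1 he' with rfl | he'
    · refine ⟨?_, ?_, ?_, ?_⟩
      · change Part (e.k + 1) _ (cells (Nat.lor e.Z (Nat.shiftLeft 1 arg)))
          (cells (Nat.lor e.Z (Nat.shiftLeft 1 arg)))
        rw [cells_clear, cells_lor, cells_lor, cells_bit]
        exact hw
      · intro i hi
        have h1 : cell i ∈ cells (Nat.xor (Nat.lor e.M e.I)
            (Nat.land (Nat.lor e.M e.I) (Nat.shiftLeft 1 arg))) := mem_cells.2 hi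
        rw [cells_clear] at h1
        have := valid_of_testBit_lor hv.bdM hv.bdI i (mem_cells.1 h1.1)
        change i % 64 ≤ nmax e.x (Nat.land arg 63)
        rw [← hx]
        exact this.trans (le_max_left _ _)
      · change ∀ i, (Nat.lor e.Z (Nat.shiftLeft 1 arg)).testBit i = true →
          i % 64 ≤ nmax e.x (Nat.land arg 63)
        rw [← hx]
        exact valid_of_testBit_lor (bd_mono hv.bdZ (le_max_left _ _))
          (bd_mono (bd_bit arg) (le_max_right _ _))
      · change ∀ i, (Nat.lor e.Z (Nat.shiftLeft 1 arg)).testBit i = true →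
          i % 64 ≤ nmax e.x (Nat.land arg 63)
        rw [← hx]
        exact valid_of_testBit_lor (bd_mono hv.bdZ (le_max_left _ _))
          (bd_mono (bd_bit arg) (le_max_right _ _))
    · exact h.1 e' (List.mem_cons_of_mem _ he')

theorem opMerge_sound {st : List Ent} {mem : Mem} {st' : List Ent} {mem' : Mem}
    (h : StOK st mem) (hr : opMerge st mem = some (st', mem')) : StOK st' mem' := by
  cases st with
  | nil => exact absurd hr (by simp [opMerge])
  | cons e₁ st₁ =>
    cases st₁ with
    | nil => exact absurd hr (by simp [opMerge])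
    | cons e₂ st₀ =>
      have hr' : some (Ent.mk (nmax e₁.k e₂.k) (Nat.lor e₁.M e₂.M) (Nat.lor e₁.Z e₂.Z)
          (Nat.land e₁.I e₂.I) (nmax e₁.x e₂.x) :: st₀, mem) = some (st', mem') := hr
      simp only [Option.some.injEq, Prod.mk.injEq] at hr'
      obtain ⟨rfl, rfl⟩ := hr'
      have h1 : Valid e₁ := h.1 e₁ (by simp)
      have h2 : Valid e₂ := h.1 e₂ (by simp)
      refine ⟨?_, h.2⟩
      intro e' he'
      rcases List.mem_cons.1 he' with rfl | he'
      · have hx1 : e₁.x ≤ nmax e₁.x e₂.x := by rw [nmax_eq]; exact le_max_left _ _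
        have hx2 : e₂.x ≤ nmax e₁.x e₂.x := by rw [nmax_eq]; exact le_max_right _ _
        refine ⟨?_, ?_, ?_, ?_⟩
        · change Part (nmax e₁.k e₂.k) (cells (Nat.lor e₁.M e₂.M)) (cells (Nat.lor e₁.Z e₂.Z))
            (cells (Nat.land e₁.I e₂.I))
          rw [cells_lor, cells_lor, cells_land, nmax_eq]
          exact Part.merge h1.part h2.part
        · exact valid_of_testBit_lor (bd_mono h1.bdM hx1) (bd_mono h2.bdM hx2)
        · exact valid_of_testBit_lor (bd_mono h1.bdZ hx1) (bd_mono h2.bdZ hx2)
        · intro i hi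
          have : (e₁.I &&& e₂.I).testBit i = true := hi
          rw [Nat.testBit_and, Bool.and_eq_true] at this
          exact bd_mono h1.bdI hx1 i this.1
      · exact h.1 e' (List.mem_cons_of_mem _ (List.mem_cons_of_mem _ he'))

/-- The mask `pat o <<< s` contains a copy of Snaky. -/
theorem testBit_pat_shift {P s j : ℕ} (h : P.testBit j = true) :
    (Nat.shiftLeft P s).testBit (j + s) = true := by
  rw [testBit_shiftLeft']
  simp [h]

theorem cell_add_pat {a b s : ℕ} (ha : a < 64) (h : s % 64 + a < 64) :
    cell ((a + 64 * b) + s) = (((s % 64 : ℕ) : ℤ) + a, ((s / 64 : ℕ) : ℤ) + b) := by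
  have h1 : (a + 64 * b + s) % 64 = s % 64 + a := by omega
  have h2 : (a + 64 * b + s) / 64 = s / 64 + b := by omega
  simp [cell, h1, h2]

theorem mem_cells_pat {P a b s : ℕ} (ha : a < 64) (h : s % 64 + a < 64)
    (hP : P.testBit (a + 64 * b) = true) :
    (((s % 64 : ℕ) : ℤ) + a, ((s / 64 : ℕ) : ℤ) + b) ∈ cells (Nat.shiftLeft P s) := by
  rw [← cell_add_pat ha h]
  exact mem_cells.2 (testBit_pat_shift hP)

theorem pat_contains {o s : ℕ} (ho : o < 8) (hs : s % 64 ≤ 59) :
    ContainsCopy (cells (Nat.shiftLeft (pat o) s)) := by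
  set x : ℤ := ((s % 64 : ℕ) : ℤ) with hx
  set y : ℤ := ((s / 64 : ℕ) : ℤ) with hy
  have key : ∀ a b : ℕ, a ≤ 4 → (pat o).testBit (a + 64 * b) = true →
      (x + a, y + b) ∈ cells (Nat.shiftLeft (pat o) s) := fun a b ha hb =>
    mem_cells_pat (by omega) (by omega) hb
  interval_cases o
  · refine ⟨(x + 0, y + 0), 1, 1, Or.inl rfl, Or.inl rfl, Or.inl ?_⟩
    intro p hp
    simp only [snaky, Finset.mem_insert, Finset.mem_singleton] at hp
    rcases hp with rfl | rfl | rfl | rfl | rfl | rfl
    · convert key 0 0 (by norm_num) (by decide) using 1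
      refine Prod.ext ?_ ?_ <;> simp <;> ring
    · convert key 1 0 (by norm_num) (by decide) using 1
      refine Prod.ext ?_ ?_ <;> simp <;> ring
    · convert key 2 0 (by norm_num) (by decide) using 1
      refine Prod.ext ?_ ?_ <;> simp <;> ring
    · convert key 3 0 (by norm_num) (by decide) using 1
      refine Prod.ext ?_ ?_ <;> simp <;> ring
    · convert key 3 1 (by norm_num) (by decide) using 1
      refine Prod.ext ?_ ?_ <;> simp <;> ring
    · convert key 4 1 (by norm_num) (by decide) using 1
      refine Prod.ext ?_ ?_ <;> simp <;> ring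
  · refine ⟨(x + 4, y + 0), -1, 1, Or.inr rfl, Or.inl rfl, Or.inl ?_⟩
    intro p hp
    simp only [snaky, Finset.mem_insert, Finset.mem_singleton] at hp
    rcases hp with rfl | rfl | rfl | rfl | rfl | rfl
    · convert key 4 0 (by norm_num) (by decide) using 1
      refine Prod.ext ?_ ?_ <;> simp <;> ring
    · convert key 3 0 (by norm_num) (by decide) using 1
      refine Prod.ext ?_ ?_ <;> simp <;> ring
    · convert key 2 0 (by norm_num) (by decide) using 1
      refine Prod.ext ?_ ?_ <;> simp <;> ring
    · convert key 1 0 (by norm_num) (by decide) using 1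
      refine Prod.ext ?_ ?_ <;> simp <;> ring
    · convert key 1 1 (by norm_num) (by decide) using 1
      refine Prod.ext ?_ ?_ <;> simp <;> ring
    · convert key 0 1 (by norm_num) (by decide) using 1
      refine Prod.ext ?_ ?_ <;> simp <;> ring
  · refine ⟨(x + 0, y + 1), 1, -1, Or.inl rfl, Or.inr rfl, Or.inl ?_⟩
    intro p hp
    simp only [snaky, Finset.mem_insert, Finset.mem_singleton] at hp
    rcases hp with rfl | rfl | rfl | rfl | rfl | rfl
    · convert key 0 1 (by norm_num) (by decide) using 1
      refine Prod.ext ?_ ?_ <;> simp <;> ring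
    · convert key 1 1 (by norm_num) (by decide) using 1
      refine Prod.ext ?_ ?_ <;> simp <;> ring
    · convert key 2 1 (by norm_num) (by decide) using 1
      refine Prod.ext ?_ ?_ <;> simp <;> ring
    · convert key 3 1 (by norm_num) (by decide) using 1
      refine Prod.ext ?_ ?_ <;> simp <;> ring
    · convert key 3 0 (by norm_num) (by decide) using 1
      refine Prod.ext ?_ ?_ <;> simp <;> ring
    · convert key 4 0 (by norm_num) (by decide) using 1
      refine Prod.ext ?_ ?_ <;> simp <;> ring
  · refine ⟨(x + 4, y + 1), -1, -1, Or.inr rfl, Or.inr rfl, Or.inl ?_⟩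
    intro p hp
    simp only [snaky, Finset.mem_insert, Finset.mem_singleton] at hp
    rcases hp with rfl | rfl | rfl | rfl | rfl | rfl
    · convert key 4 1 (by norm_num) (by decide) using 1
      refine Prod.ext ?_ ?_ <;> simp <;> ring
    · convert key 3 1 (by norm_num) (by decide) using 1
      refine Prod.ext ?_ ?_ <;> simp <;> ring
    · convert key 2 1 (by norm_num) (by decide) using 1
      refine Prod.ext ?_ ?_ <;> simp <;> ring
    · convert key 1 1 (by norm_num) (by decide) using 1
      refine Prod.ext ?_ ?_ <;> simp <;> ring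
    · convert key 1 0 (by norm_num) (by decide) using 1
      refine Prod.ext ?_ ?_ <;> simp <;> ring
    · convert key 0 0 (by norm_num) (by decide) using 1
      refine Prod.ext ?_ ?_ <;> simp <;> ring
  · refine ⟨(x + 0, y + 0), 1, 1, Or.inl rfl, Or.inl rfl, Or.inr ?_⟩
    intro p hp
    simp only [snaky, Finset.mem_insert, Finset.mem_singleton] at hp
    rcases hp with rfl | rfl | rfl | rfl | rfl | rfl
    · convert key 0 0 (by norm_num) (by decide) using 1
      refine Prod.ext ?_ ?_ <;> simp <;> ring
    · convert key 0 1 (by norm_num) (by decide) using 1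
      refine Prod.ext ?_ ?_ <;> simp <;> ring
    · convert key 0 2 (by norm_num) (by decide) using 1
      refine Prod.ext ?_ ?_ <;> simp <;> ring
    · convert key 0 3 (by norm_num) (by decide) using 1
      refine Prod.ext ?_ ?_ <;> simp <;> ring
    · convert key 1 3 (by norm_num) (by decide) using 1
      refine Prod.ext ?_ ?_ <;> simp <;> ring
    · convert key 1 4 (by norm_num) (by decide) using 1
      refine Prod.ext ?_ ?_ <;> simp <;> ring
  · refine ⟨(x + 1, y + 0), -1, 1, Or.inr rfl, Or.inl rfl, Or.inr ?_⟩
    intro p hp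
    simp only [snaky, Finset.mem_insert, Finset.mem_singleton] at hp
    rcases hp with rfl | rfl | rfl | rfl | rfl | rfl
    · convert key 1 0 (by norm_num) (by decide) using 1
      refine Prod.ext ?_ ?_ <;> simp <;> ring
    · convert key 1 1 (by norm_num) (by decide) using 1
      refine Prod.ext ?_ ?_ <;> simp <;> ring
    · convert key 1 2 (by norm_num) (by decide) using 1
      refine Prod.ext ?_ ?_ <;> simp <;> ring
    · convert key 1 3 (by norm_num) (by decide) using 1
      refine Prod.ext ?_ ?_ <;> simp <;> ring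
    · convert key 0 3 (by norm_num) (by decide) using 1
      refine Prod.ext ?_ ?_ <;> simp <;> ring
    · convert key 0 4 (by norm_num) (by decide) using 1
      refine Prod.ext ?_ ?_ <;> simp <;> ring
  · refine ⟨(x + 0, y + 4), 1, -1, Or.inl rfl, Or.inr rfl, Or.inr ?_⟩
    intro p hp
    simp only [snaky, Finset.mem_insert, Finset.mem_singleton] at hp
    rcases hp with rfl | rfl | rfl | rfl | rfl | rfl
    · convert key 0 4 (by norm_num) (by decide) using 1
      refine Prod.ext ?_ ?_ <;> simp <;> ring
    · convert key 0 3 (by norm_num) (by decide) using 1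
      refine Prod.ext ?_ ?_ <;> simp <;> ring
    · convert key 0 2 (by norm_num) (by decide) using 1
      refine Prod.ext ?_ ?_ <;> simp <;> ring
    · convert key 0 1 (by norm_num) (by decide) using 1
      refine Prod.ext ?_ ?_ <;> simp <;> ring
    · convert key 1 1 (by norm_num) (by decide) using 1
      refine Prod.ext ?_ ?_ <;> simp <;> ring
    · convert key 1 0 (by norm_num) (by decide) using 1
      refine Prod.ext ?_ ?_ <;> simp <;> ring
  · refine ⟨(x + 1, y + 4), -1, -1, Or.inr rfl, Or.inr rfl, Or.inr ?_⟩
    intro p hp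
    simp only [snaky, Finset.mem_insert, Finset.mem_singleton] at hp
    rcases hp with rfl | rfl | rfl | rfl | rfl | rfl
    · convert key 1 4 (by norm_num) (by decide) using 1
      refine Prod.ext ?_ ?_ <;> simp <;> ring
    · convert key 1 3 (by norm_num) (by decide) using 1
      refine Prod.ext ?_ ?_ <;> simp <;> ring
    · convert key 1 2 (by norm_num) (by decide) using 1
      refine Prod.ext ?_ ?_ <;> simp <;> ring
    · convert key 1 1 (by norm_num) (by decide) using 1
      refine Prod.ext ?_ ?_ <;> simp <;> ring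
    · convert key 0 1 (by norm_num) (by decide) using 1
      refine Prod.ext ?_ ?_ <;> simp <;> ring
    · convert key 0 0 (by norm_num) (by decide) using 1
      refine Prod.ext ?_ ?_ <;> simp <;> ring

theorem pat_lt : ∀ o < 8, pat o < 2 ^ 258 := by decide +kernel

theorem pat_bd_small : ∀ o < 8, ∀ j < 258, (pat o).testBit j = true → j % 64 ≤ 4 := by
  decide +kernel

theorem pat_bd {o : ℕ} (ho : o < 8) (j : ℕ) (h : (pat o).testBit j = true) : j % 64 ≤ 4 := by
  by_cases hj : j < 258
  · exact pat_bd_small o ho j hj h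
  · have : (pat o).testBit j = false := by
      apply Nat.testBit_lt_two_pow
      exact lt_of_lt_of_le (pat_lt o ho) (Nat.pow_le_pow_right (by norm_num) (by omega))
    rw [this] at h
    exact absurd h (by simp)

theorem shift_bd {a s x : ℕ} (h : ∀ i, a.testBit i = true → i % 64 ≤ x) :
    ∀ i, (Nat.shiftLeft a s).testBit i = true → i % 64 ≤ x + s % 64 := by
  intro i hi
  rw [testBit_shiftLeft', Bool.and_eq_true, decide_eq_true_eq] at hi
  have := h _ hi.2
  omega

theorem land_7_lt (a : ℕ) : Nat.land a 7 < 8 := by
  change a &&& 7 < 8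
  have : a &&& 7 = a % 2 ^ 3 := Nat.and_two_pow_sub_one_eq_mod a 3
  rw [this]
  exact Nat.mod_lt _ (by norm_num)

theorem opLeaf_sound {arg : ℕ} {st : List Ent} {mem : Mem} {st' : List Ent} {mem' : Mem}
    (h : StOK st mem) (hr : opLeaf arg st mem = some (st', mem')) : StOK st' mem' := by
  unfold opLeaf at hr
  cases hb : Nat.ble (Nat.land (Nat.shiftRight arg 3) 63) 59 with
  | false => rw [hb] at hr; exact absurd hr (by simp)
  | true =>
    rw [hb] at hr
    simp only [cond_true, Option.some.injEq, Prod.mk.injEq] at hr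
    obtain ⟨rfl, rfl⟩ := hr
    have hs := Nat.le_of_ble_eq_true hb
    rw [land_63] at hs
    refine ⟨?_, h.2⟩
    intro e' he'
    rcases List.mem_cons.1 he' with rfl | he'
    · refine ⟨?_, ?_, ?_, ?_⟩
      · change Part 0 (cells (Nat.shiftLeft (pat (Nat.land arg 7)) (Nat.shiftRight arg 3)))
          (cells 0) (cells 0)
        rw [cells_zero]
        exact Part.ofWin (Win.leaf (pat_contains (land_7_lt arg) hs))
      · change ∀ i, (Nat.shiftLeft (pat (Nat.land arg 7)) (Nat.shiftRight arg 3)).testBit i = true →
          i % 64 ≤ Nat.land (Nat.shiftRight arg 3) 63 + 4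
        rw [land_63, add_comm (Nat.shiftRight arg 3 % 64)]
        exact shift_bd (pat_bd (land_7_lt arg))
      · intro i hi
        exact absurd hi (by simp)
      · intro i hi
        exact absurd hi (by simp)
    · exact h.1 e' he'

theorem opStore_sound {arg : ℕ} {st : List Ent} {mem : Mem} {st' : List Ent} {mem' : Mem}
    (h : StOK st mem) (hr : opStore arg st mem = some (st', mem')) : StOK st' mem' := by
  cases st with
  | nil => exact absurd hr (by simp [opStore])
  | cons e st₀ =>
    have hr' : some (st₀, Mem.set 20 mem arg e) = some (st', mem') := hr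
    simp only [Option.some.injEq, Prod.mk.injEq] at hr'
    obtain ⟨rfl, rfl⟩ := hr'
    exact ⟨fun e' he' => h.1 e' (List.mem_cons_of_mem _ he'),
      Mem.set_all 20 h.2 arg (h.1 e (by simp))⟩

theorem opLoad_sound {arg : ℕ} {st : List Ent} {mem : Mem} {st' : List Ent} {mem' : Mem}
    (h : StOK st mem) (hr : opLoad arg st mem = some (st', mem')) : StOK st' mem' := by
  unfold opLoad at hr
  cases hg : mem.get (Nat.shiftRight arg 12) with
  | none => rw [hg] at hr; exact absurd hr (by simp)
  | some e =>
    rw [hg] at hr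
    have hv : Valid e := Mem.get_all h.2 hg
    generalize hs : Nat.land arg 4095 = s at hr
    have hr' : cond (Nat.ble (e.x + Nat.land s 63) 63)
      (some (Ent.mk e.k (Nat.shiftLeft e.M s) (Nat.shiftLeft e.Z s) (Nat.shiftLeft e.I s)
        (e.x + Nat.land s 63) :: st, mem))
      none = some (st', mem') := hr
    cases hb : Nat.ble (e.x + Nat.land s 63) 63 with
    | false => rw [hb] at hr'; exact absurd hr' (by simp)
    | true =>
      rw [hb] at hr'
      simp only [cond_true, Option.some.injEq, Prod.mk.injEq] at hr'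
      obtain ⟨rfl, rfl⟩ := hr'
      have hx := Nat.le_of_ble_eq_true hb
      rw [land_63] at hx
      have shiftmem : ∀ {a : ℕ}, (∀ i, a.testBit i = true → i % 64 ≤ e.x) →
          ∀ p ∈ cells a, p + cell s ∈ cells (Nat.shiftLeft a s) := by
        rintro a ha p ⟨i, hi, rfl⟩
        rw [← cell_add (by have := ha i hi; omega)]
        exact mem_cells.2 (testBit_pat_shift hi)
      refine ⟨?_, h.2⟩
      intro e' he'
      rcases List.mem_cons.1 he' with rfl | he'
      · refine ⟨?_, ?_, ?_, ?_⟩
        · exact Part.translate (cell s) hv.part (shiftmem hv.bdM) (shiftmem hv.bdZ) (shiftmem hv.bdI)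
        · change ∀ i, (Nat.shiftLeft e.M s).testBit i = true → i % 64 ≤ e.x + Nat.land s 63
          rw [land_63]
          exact shift_bd hv.bdM
        · change ∀ i, (Nat.shiftLeft e.Z s).testBit i = true → i % 64 ≤ e.x + Nat.land s 63
          rw [land_63]
          exact shift_bd hv.bdZ
        · change ∀ i, (Nat.shiftLeft e.I s).testBit i = true → i % 64 ≤ e.x + Nat.land s 63
          rw [land_63]
          exact shift_bd hv.bdI
      · exact h.1 e' he'

theorem exec_sound {ins : ℕ} {st : List Ent} {mem : Mem} {st' : List Ent} {mem' : Mem}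
    (h : StOK st mem) (hr : exec ins st mem = some (st', mem')) : StOK st' mem' := by
  have hr' : (cond (Nat.beq (Nat.land ins 7) 2) (opStep (Nat.shiftRight ins 3) st mem) <|
      cond (Nat.beq (Nat.land ins 7) 1) (opMerge st mem) <|
      cond (Nat.beq (Nat.land ins 7) 0) (opLeaf (Nat.shiftRight ins 3) st mem) <|
      cond (Nat.beq (Nat.land ins 7) 3) (opStore (Nat.shiftRight ins 3) st mem) <|
      cond (Nat.beq (Nat.land ins 7) 4) (opLoad (Nat.shiftRight ins 3) st mem) <|
      cond (Nat.beq (Nat.land ins 7) 5) (some (st, mem)) none) = some (st', mem') := hr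
  revert hr'
  cases Nat.beq (Nat.land ins 7) 2 <;> simp only [cond_true, cond_false, id]
  · cases Nat.beq (Nat.land ins 7) 1 <;> simp only [cond_true, cond_false, id]
    · cases Nat.beq (Nat.land ins 7) 0 <;> simp only [cond_true, cond_false, id]
      · cases Nat.beq (Nat.land ins 7) 3 <;> simp only [cond_true, cond_false, id]
        · cases Nat.beq (Nat.land ins 7) 4 <;> simp only [cond_true, cond_false, id]
          · cases Nat.beq (Nat.land ins 7) 5 <;> simp only [cond_true, cond_false, id]
            · simp
            · simp only [Option.some.injEq, Prod.mk.injEq]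
              rintro ⟨rfl, rfl⟩
              exact h
          · exact opLoad_sound h
        · exact opStore_sound h
      · exact opLeaf_sound h
    · exact opMerge_sound h
  · exact opStep_sound h

theorem runChunk_sound (fuel : ℕ) {c : ℕ} {st : List Ent} {mem : Mem} {st' : List Ent} {mem' : Mem}
    (h : StOK st mem) (hr : runChunk fuel c st mem = some (st', mem')) : StOK st' mem' := by
  induction fuel generalizing c st mem with
  | zero =>
    have hr' : some (st, mem) = some (st', mem') := hr
    simp only [Option.some.injEq, Prod.mk.injEq] at hr'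
    obtain ⟨rfl, rfl⟩ := hr'
    exact h
  | succ n ih =>
    have hr' : Option.rec none (fun p => runChunk n (Nat.shiftRight c 40) p.1 p.2)
        (exec (Nat.land c 1099511627775) st mem) = some (st', mem') := hr
    cases he : exec (Nat.land c 1099511627775) st mem with
    | none => rw [he] at hr'; exact absurd hr' (by simp)
    | some p =>
      rw [he] at hr'
      obtain ⟨s₁, m₁⟩ := p
      exact ih (exec_sound h he) hr'

theorem runAll_sound (fuel : ℕ) {l : List ℕ} {st : List Ent} {mem : Mem} {st' : List Ent}
    {mem' : Mem} (h : StOK st mem) (hr : runAll fuel l st mem = some (st', mem')) :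
    StOK st' mem' := by
  induction l generalizing st mem with
  | nil =>
    have hr' : some (st, mem) = some (st', mem') := hr
    simp only [Option.some.injEq, Prod.mk.injEq] at hr'
    obtain ⟨rfl, rfl⟩ := hr'
    exact h
  | cons c l ih =>
    have hr' : Option.rec none (fun p => runAll fuel l p.1 p.2)
        (runChunk fuel c st mem) = some (st', mem') := hr
    cases he : runChunk fuel c st mem with
    | none => rw [he] at hr'; exact absurd hr' (by simp)
    | some p =>
      rw [he] at hr'
      obtain ⟨s₁, m₁⟩ := p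
      exact ih (runChunk_sound fuel h he) hr'

theorem win_of_check {fuel : ℕ} {l : List ℕ} {m : ℕ} (h : check fuel l m = true) :
    ∃ Z : Set Cell, Win 21 ∅ Z := by
  unfold check rootOK at h
  cases hr : runAll fuel l [] Mem.nil with
  | none => rw [hr] at h; exact absurd h (by simp)
  | some p =>
    rw [hr] at h
    obtain ⟨st, mem⟩ := p
    have hok : StOK st mem :=
      runAll_sound fuel (st := []) (mem := Mem.nil) ⟨by simp, trivial⟩ hr
    cases st with
    | nil => exact absurd h (by simp)
    | cons e st₀ =>
      have h' : and (Nat.ble e.k 20)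
        (Nat.beq (Nat.xor (Nat.lor e.M e.I) (Nat.land (Nat.lor e.M e.I) (Nat.shiftLeft 1 m))) 0)
          = true := h
      simp only [Bool.and_eq_true] at h'
      obtain ⟨h2, h3⟩ := h'
      have hk : e.k ≤ 20 := Nat.le_of_ble_eq_true h2
      have hM := Nat.eq_of_beq_eq_true h3
      have hv : Valid e := hok.1 e (by simp)
      have hw := hv.part.step (cell m)
      rw [← cells_lor, ← cells_clear, hM, cells_zero] at hw
      exact ⟨_, hw.mono (by omega) (le_refl _) (le_refl _)⟩

/-- The statement of S0047 from a passing certificate check. -/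
theorem main_of_check {fuel : ℕ} {l : List ℕ} {m : ℕ} (h : check fuel l m = true) :
    ∃ σ : List (ℤ × ℤ) → ℤ × ℤ, ∀ b : ℕ → ℤ × ℤ,
      (∀ k : ℕ, k < 20 →
        (∀ j : ℕ, j ≤ k → b k ≠ makerClaim σ b j) ∧
        (∀ j : ℕ, j < k → b k ≠ b j)) →
      (∀ k : ℕ, k ≤ 20 →
        (∀ j : ℕ, j < k → makerClaim σ b k ≠ makerClaim σ b j) ∧
        (∀ j : ℕ, j < k → makerClaim σ b k ≠ b j)) ∧
      ContainsCopy {c | ∃ j : ℕ, j ≤ 20 ∧ c = makerClaim σ b j} := by
  obtain ⟨Z, hZ⟩ := win_of_check h
  obtain ⟨σ, hσ⟩ := main_of_win hZ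
  exact ⟨σ, fun b _ => hσ b⟩

end Crest.Agent.Snaky
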