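import Crest.Agent.Lib.Snaky.Sound

/-!
# Snaky: running the certificate in several separately checked parts

Each part is a machine run from the empty state whose top entry is a literal `Ent`; the root run
starts from a stack of such entries.  Keeps the kernel's peak memory per declaration small.
-/

namespace Crest.Agent.Snaky

open Crest.CombinatoricsR.PolyominoGame

/-- The top entry of the run is the given one. -/
noncomputable def topIs (e₀ : Ent) (r : R) : Bool :=
  Option.rec false (fun p => List.rec false (fun e _ _ =>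
    and (Nat.beq e.k e₀.k) (and (Nat.beq e.M e₀.M) (and (Nat.beq e.Z e₀.Z)
      (and (Nat.beq e.I e₀.I) (Nat.beq e.x e₀.x))))) p.1) r

theorem valid_of_topIs {fuel : ℕ} {l : List ℕ} {e₀ : Ent}
    (h : topIs e₀ (runAll fuel l [] Mem.nil) = true) : Valid e₀ := by
  unfold topIs at h
  cases hr : runAll fuel l [] Mem.nil with
  | none => rw [hr] at h; exact absurd h (by simp)
  | some p =>
    rw [hr] at h
    obtain ⟨st, mem⟩ := p
    have hok : StOK st mem :=
      runAll_sound fuel (st := []) (mem := Mem.nil) ⟨by simp, trivial⟩ hr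
    cases st with
    | nil => exact absurd h (by simp)
    | cons e st₀ =>
      have h' : and (Nat.beq e.k e₀.k) (and (Nat.beq e.M e₀.M) (and (Nat.beq e.Z e₀.Z)
        (and (Nat.beq e.I e₀.I) (Nat.beq e.x e₀.x)))) = true := h
      simp only [Bool.and_eq_true] at h'
      obtain ⟨h1, h2, h3, h4, h5⟩ := h'
      have e1 := Nat.eq_of_beq_eq_true h1
      have e2 := Nat.eq_of_beq_eq_true h2
      have e3 := Nat.eq_of_beq_eq_true h3
      have e4 := Nat.eq_of_beq_eq_true h4
      have e5 := Nat.eq_of_beq_eq_true h5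
      have : e = e₀ := by
        cases e; cases e₀; simp_all
      rw [← this]
      exact hok.1 e (by simp)

theorem valid_nil : ∀ e ∈ ([] : List Ent), Valid e := by simp

theorem valid_cons {e₀ : Ent} {st : List Ent} (h₀ : Valid e₀) (h : ∀ e ∈ st, Valid e) :
    ∀ e ∈ e₀ :: st, Valid e := by
  intro e he
  rcases List.mem_cons.mp he with rfl | he'
  · exact h₀
  · exact h e he'

theorem valid_of_topIs_stack {fuel : ℕ} {l : List ℕ} {e₀ : Ent} {st₀ : List Ent}
    (hst : ∀ e ∈ st₀, Valid e)
    (h : topIs e₀ (runAll fuel l st₀ Mem.nil) = true) : Valid e₀ := by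
  unfold topIs at h
  cases hr : runAll fuel l st₀ Mem.nil with
  | none => rw [hr] at h; exact absurd h (by simp)
  | some p =>
    rw [hr] at h
    obtain ⟨st, mem⟩ := p
    have hok : StOK st mem :=
      runAll_sound fuel (st := st₀) (mem := Mem.nil) ⟨hst, trivial⟩ hr
    cases st with
    | nil => exact absurd h (by simp)
    | cons e st₁ =>
      have h' : and (Nat.beq e.k e₀.k) (and (Nat.beq e.M e₀.M) (and (Nat.beq e.Z e₀.Z)
        (and (Nat.beq e.I e₀.I) (Nat.beq e.x e₀.x)))) = true := h
      simp only [Bool.and_eq_true] at h'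
      obtain ⟨h1, h2, h3, h4, h5⟩ := h'
      have e1 := Nat.eq_of_beq_eq_true h1
      have e2 := Nat.eq_of_beq_eq_true h2
      have e3 := Nat.eq_of_beq_eq_true h3
      have e4 := Nat.eq_of_beq_eq_true h4
      have e5 := Nat.eq_of_beq_eq_true h5
      have : e = e₀ := by
        cases e; cases e₀; simp_all
      rw [← this]
      exact hok.1 e (by simp)

theorem win_of_stack {fuel : ℕ} {l : List ℕ} {m : ℕ} {st₀ : List Ent} (hst : ∀ e ∈ st₀, Valid e)
    (h : rootOK m (runAll fuel l st₀ Mem.nil) = true) :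
    ∃ Z : Set Cell, Win 21 ∅ Z := by
  unfold rootOK at h
  cases hr : runAll fuel l st₀ Mem.nil with
  | none => rw [hr] at h; exact absurd h (by simp)
  | some p =>
    rw [hr] at h
    obtain ⟨st, mem⟩ := p
    have hok : StOK st mem :=
      runAll_sound fuel (st := st₀) (mem := Mem.nil) ⟨hst, trivial⟩ hr
    cases st with
    | nil => exact absurd h (by simp)
    | cons e st₁ =>
      have h' : and (Nat.ble e.k 20)
        (Nat.beq (Nat.xor (Nat.lor e.M e.I) (Nat.land (Nat.lor e.M e.I) (Nat.shiftLeft 1 m))) 0)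
          = true := h
      simp only [Bool.and_eq_true] at h'
      obtain ⟨h2, h3⟩ := h'
      have hk : e.k ≤ 20 := Nat.le_of_ble_eq_true h2
      have hM := Nat.eq_of_beq_eq_true h3
      have hv : Valid e := hok.1 e (by simp)
      have hw := hv.part.step (cell m)
      rw [← cells_lor, ← cells_clear, hM, cells_zero] at hw
      exact ⟨_, hw.mono (by omega) (le_refl _) (le_refl _)⟩

/-- The statement of S0047 from separately checked parts and a root run. -/
theorem main_of_stack {fuel : ℕ} {l : List ℕ} {m : ℕ} {st₀ : List Ent}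
    (hst : ∀ e ∈ st₀, Valid e) (h : rootOK m (runAll fuel l st₀ Mem.nil) = true) :
    ∃ σ : List (ℤ × ℤ) → ℤ × ℤ, ∀ b : ℕ → ℤ × ℤ,
      (∀ k : ℕ, k < 20 →
        (∀ j : ℕ, j ≤ k → b k ≠ makerClaim σ b j) ∧
        (∀ j : ℕ, j < k → b k ≠ b j)) →
      (∀ k : ℕ, k ≤ 20 →
        (∀ j : ℕ, j < k → makerClaim σ b k ≠ makerClaim σ b j) ∧
        (∀ j : ℕ, j < k → makerClaim σ b k ≠ b j)) ∧
      ContainsCopy {c | ∃ j : ℕ, j ≤ 20 ∧ c = makerClaim σ b j} := by
  obtain ⟨Z, hZ⟩ := win_of_stack hst h
  obtain ⟨σ, hσ⟩ := main_of_win hZ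
  exact ⟨σ, fun b _ => hσ b⟩

end Crest.Agent.Snaky
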