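import Crest.Agent.Lib.Snaky.Core

/-!
# Snaky: the certificate machine (pure `Nat` computation, runs in the kernel)

Bit `i` of a mask stands for the cell `(i % 64, i / 64)`.  Written with raw recursors and small
functions to keep the kernel's work per instruction small.
-/

namespace Crest.Agent.Snaky

/-- A derived fact: `Part k (cells M) (cells Z) (cells I)`, all columns `≤ x`. -/
structure Ent where
  k : Nat
  M : Nat
  Z : Nat
  I : Nat
  x : Nat

/-- Binary trie for stored lemmas. -/
inductive Mem where
  | nil : Mem
  | leaf (e : Ent) : Mem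
  | node (l r : Mem) : Mem

noncomputable def Mem.get (m : Mem) : Nat → Option Ent :=
  Mem.rec (fun _ => none) (fun e _ => some e)
    (fun _ _ il ir key =>
      cond (Nat.beq (Nat.land key 1) 0) (il (Nat.shiftRight key 1)) (ir (Nat.shiftRight key 1))) m

/-- Store at `key` using `d` key bits. -/
noncomputable def Mem.set (d : Nat) : Mem → Nat → Ent → Mem :=
  Nat.rec (fun _ _ e => Mem.leaf e)
    (fun _ ih m key e =>
      Mem.rec
        (cond (Nat.beq (Nat.land key 1) 0)
          (Mem.node (ih Mem.nil (Nat.shiftRight key 1) e) Mem.nil)
          (Mem.node Mem.nil (ih Mem.nil (Nat.shiftRight key 1) e)))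
        (fun _ => Mem.leaf e)
        (fun l r _ _ => cond (Nat.beq (Nat.land key 1) 0)
          (Mem.node (ih l (Nat.shiftRight key 1) e) r)
          (Mem.node l (ih r (Nat.shiftRight key 1) e))) m) d

/-- The eight orientations of Snaky as masks (all offsets nonnegative). -/
def pat (o : Nat) : Nat :=
  cond (Nat.beq o 0) 442721857769029238799 <|
  cond (Nat.beq o 1) 55340232221128654878 <|
  cond (Nat.beq o 2) 276701161105643274264 <|
  cond (Nat.beq o 3) 553402322211286548483 <|
  cond (Nat.beq o 4)
    231584178474632390865973275223535857998387619967825065790704055700723840581633 <|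
  cond (Nat.beq o 5)
    115792089237316195442402290214847950145457917669105440214728293044316188704770 <|
  cond (Nat.beq o 6)
    115792089237316195429848086744074588617446056455769168919078654292030061019138 <|
  231584178474632390859696173488149177234892112911538337838101968351838993383425

def nmax (a b : Nat) : Nat := cond (Nat.ble a b) b a

abbrev R := Option (List Ent × Mem)

/-- STEP: Maker's move `arg` on the top entry; its exception set becomes a Maker requirement. -/
noncomputable def opStep (arg : Nat) (st : List Ent) (mem : Mem) : R :=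
  List.rec none (fun e st' _ =>
    (fun b z u => some (Ent.mk (Nat.succ e.k) (Nat.xor u (Nat.land u b)) z z
          (nmax e.x (Nat.land arg 63)) :: st', mem))
      (Nat.shiftLeft 1 arg) (Nat.lor e.Z (Nat.shiftLeft 1 arg)) (Nat.lor e.M e.I)) st

/-- MERGE: the two top entries are alternative answers to Breaker's reply. -/
noncomputable def opMerge (st : List Ent) (mem : Mem) : R :=
  List.rec none (fun e₁ st₁ _ => List.rec none (fun e₂ st' _ =>
    some (Ent.mk (nmax e₁.k e₂.k) (Nat.lor e₁.M e₂.M) (Nat.lor e₁.Z e₂.Z) (Nat.land e₁.I e₂.I)
          (nmax e₁.x e₂.x) :: st', mem)) st₁) st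

/-- LEAF: orientation `arg % 8`, position `arg >> 3`. -/
noncomputable def opLeaf (arg : Nat) (st : List Ent) (mem : Mem) : R :=
  cond (Nat.ble (Nat.land (Nat.shiftRight arg 3) 63) 59)
    (some (Ent.mk 0 (Nat.shiftLeft (pat (Nat.land arg 7)) (Nat.shiftRight arg 3)) 0 0
      (Nat.land (Nat.shiftRight arg 3) 63 + 4) :: st, mem))
    none

/-- STORE: pop into memory at key `arg`. -/
noncomputable def opStore (arg : Nat) (st : List Ent) (mem : Mem) : R :=
  List.rec none (fun e st' _ => some (st', Mem.set 20 mem arg e)) st

/-- LOAD: push memory `arg >> 12` translated by `arg % 4096 = dx + 64 dy`. -/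
noncomputable def opLoad (arg : Nat) (st : List Ent) (mem : Mem) : R :=
  Option.rec none (fun e =>
    (fun s => cond (Nat.ble (e.x + Nat.land s 63) 63)
      (some (Ent.mk e.k (Nat.shiftLeft e.M s) (Nat.shiftLeft e.Z s) (Nat.shiftLeft e.I s)
        (e.x + Nat.land s 63) :: st, mem))
      none) (Nat.land arg 4095)) (mem.get (Nat.shiftRight arg 12))

/-- One instruction; the low three bits are the opcode (5 is a no-op, used for padding). -/
noncomputable def exec (ins : Nat) (st : List Ent) (mem : Mem) : R :=
  (fun op arg =>
  cond (Nat.beq op 2) (opStep arg st mem) <|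
  cond (Nat.beq op 1) (opMerge st mem) <|
  cond (Nat.beq op 0) (opLeaf arg st mem) <|
  cond (Nat.beq op 3) (opStore arg st mem) <|
  cond (Nat.beq op 4) (opLoad arg st mem) <|
  cond (Nat.beq op 5) (some (st, mem)) none) (Nat.land ins 7) (Nat.shiftRight ins 3)

/-- Run `fuel` instructions of 40 bits each from the chunk `c`, low bits first. -/
noncomputable def runChunk (fuel : Nat) : Nat → List Ent → Mem → R :=
  Nat.rec (fun _ st mem => some (st, mem))
    (fun _ ih c st mem =>
      Option.rec none (fun p => ih (Nat.shiftRight c 40) p.1 p.2)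
        (exec (Nat.land c 1099511627775) st mem)) fuel

/-- Run a list of chunks, `fuel` instructions in each. -/
noncomputable def runAll (fuel : Nat) (l : List Nat) : List Ent → Mem → R :=
  List.rec (fun st mem => some (st, mem))
    (fun c _ ih st mem =>
      Option.rec none (fun p => ih p.1 p.2) (runChunk fuel c st mem)) l

/-- The root check: the top entry is a Breaker-to-move fact with `k ≤ 20` whose Maker requirement
is at most the first move `m`. -/
noncomputable def rootOK (m : Nat) (r : R) : Bool :=
  Option.rec false (fun p =>
    List.rec false (fun e _ _ =>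
      and (Nat.ble e.k 20)
        (Nat.beq (Nat.xor (Nat.lor e.M e.I) (Nat.land (Nat.lor e.M e.I) (Nat.shiftLeft 1 m))) 0)) p.1) r

noncomputable def check (fuel : Nat) (l : List Nat) (m : Nat) : Bool :=
  rootOK m (runAll fuel l [] Mem.nil)

end Crest.Agent.Snaky
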